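import Vale.Agent.P313.CT.Lib
import Vale.Agent.P313.NW.BP.PhVal

/-!
The induction over all levels: if the program of every phase returns the canonical value as soon as
the lower levels do, then so does the whole program.
-/

namespace Vale.Agent.P313.NW.H899

open Vale.Agent.P313.H899

open Finset Vale.Agent.P313.NW.CT Vale.Agent.P313.CT Vale.Agent.P313.NW.BP

/-- Everything on which canonical values depend. -/
structure Ctx where
  /-- parameters -/
  p : Par2
  /-- kernels and losses -/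
  S : Sem
  /-- trees -/
  T : TSem
  /-- successors of the configurations -/
  cs : ℕ → Bool → ℕ
  /-- offsets -/
  o : ℕ → ℕ → ℕ
  /-- seed of the sampler -/
  w : ℕ → ℕ

namespace Ctx

variable (C : Ctx)

/-- Canonical data of stage `s`. -/
noncomputable def dt (s : ℕ) : SD := data C.p.toPar C.S C.cs C.o s

/-- Canonical value of level `l` at the query `q` and the tape `t`. -/
noncomputable def pv (l q : ℕ) (t : Tp) : ℕ :=
  phVal C.p C.S C.T C.w (C.dt (l / C.p.m)) (C.o (l / C.p.m)) (l % C.p.m) q t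

/-- Valid queries of level `l`. -/
def vl (l q : ℕ) : Prop := vq C.p (C.dt (l / C.p.m)) (l % C.p.m) q

/-- The levels below `l` are answered canonically. -/
def Right (V : Orc) (l : ℕ) : Prop :=
  ∀ l' < l, ∀ q, C.vl l' q → ∀ t, TpOk C.p t → V (Nat.pair l' q) t = C.pv l' q t

/-- The environment is the one described in `Lay.lean`. -/
structure EnvOk (E : Env) : Prop where
  s0 : E.st 0 = C.p.n
  s1 : E.st 1 = C.p.q
  s2 : E.st 2 = C.p.b
  s3 : E.st 3 = C.p.r
  s4 : E.st 4 = C.p.rk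
  s5 : E.st 5 = C.p.K
  s6 : E.st 6 = C.p.Th1
  s7 : E.st 7 = C.p.D
  s8 : E.st 8 = C.p.JF
  s9 : E.st 9 = C.p.JN
  s10 : E.st 10 = C.p.Th
  s11 : E.st 11 = C.p.cmax
  s12 : E.st 12 = C.p.nd
  s13 : E.st 13 = C.p.Lam
  s14 : E.st 14 = C.p.Q
  s15 : E.st 15 = C.p.DC
  s16 : E.st 16 = C.p.c0
  s17 : E.st 17 = C.p.lw
  s18 : E.st 18 = C.p.Om
  s19 : E.st 19 = C.p.m
  s20 : E.st 20 = C.p.S
  off : ∀ s < C.p.S, ∀ i < 6, E.st (stOff s i) = C.o s i
  seed : ∀ i < C.p.nw, E.st (stW C.p.S + i) = C.w i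
  stB : ∀ j < stW C.p.S + C.p.nw, E.st j ≤ E.B
  w : E.w = C.p.q
  L : E.L = C.p.L

/-- Stage data are valid. -/
structure DtOk (d : SD) : Prop where
  row : ∀ v < C.p.n, ∑ x ∈ range C.p.n, d.A v x = C.p.q ^ C.p.b
  cb : ∀ v < C.p.n, C.p.b ≤ d.c v
  cm : ∀ v < C.p.n, d.c v ≤ C.p.cmax
  mass : ∑ v ∈ range C.p.n, C.p.q ^ (d.c v - C.p.b) ≤ 2 * C.p.n
  kK : ∀ v < C.p.n, d.k v ≤ C.p.K

/-- All hypotheses under which the phases are correct. -/
structure Hyp (E : Env) : Prop extends C.EnvOk E where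
  /-- the top level is small -/
  topB : C.p.S * C.p.m ≤ E.B
  /-- at least all kinds -/
  B18 : 18 ≤ E.B
  /-- valid queries are small -/
  qB : ∀ l ≤ C.p.S * C.p.m, ∀ q, C.vl l q → q ≤ E.B
  /-- canonical values are small -/
  vB : ∀ l ≤ C.p.S * C.p.m, ∀ q, C.vl l q → ∀ t, TpOk C.p t → C.pv l q t ≤ E.B
  /-- data are valid -/
  dtOk : ∀ s ≤ C.p.S, C.DtOk (C.dt s)
  /-- the scale of the walks of kind `0` and `2` is small -/
  wB : 4 ^ 2 ^ C.p.JF ≤ E.B
  /-- the scale of the walk of the Neumann series is small -/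
  wXB : C.p.RX ^ 2 ^ C.p.JN ≤ E.B
  /-- majorities are canonical, kind `0` -/
  mj0 : ∀ s < C.p.S, ∀ a < C.p.r, ∀ v < C.p.n, ∀ x < C.p.n, ∀ t, TpOk C.p t →
    maj C.p.lw (fun j => avgV C.p C.T C.w (C.dt s) (fun _ => False) (C.o s 0) j a v x t) =
      P0 C.p.toPar C.S (C.dt s) (C.o s) a v x
  /-- majorities are canonical, loss -/
  mjL : ∀ s < C.p.S, ∀ x < C.p.n, ∀ t, TpOk C.p t →
    maj C.p.lw (fun j => avgL C.p C.T C.w (C.dt s) (Z1 C.p.toPar C.S (C.dt s) (C.o s))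
      (C.o s 2) j x t) = lossR C.p.toPar C.S (C.dt s) (C.o s) x
  /-- majorities are canonical, kind `2` -/
  mj2 : ∀ s < C.p.S, ∀ a < C.p.r, ∀ v < C.p.n, ∀ x < C.p.n, ∀ t, TpOk C.p t →
    maj C.p.lw (fun j => avgV C.p C.T C.w (C.dt s)
      (Zs C.p.toPar C.S (C.dt s) (C.o s)) (C.o s 3) j a v x t) =
      P2 C.p.toPar C.S (C.dt s) (C.o s) a v x
  /-- the estimate of the product of kind `0` is canonical -/
  h0 : ∀ s < C.p.S, ∀ v < C.p.n, ∀ x < C.p.n,
    estW C.p C.w (C.o s 1) C.p.n 4 C.p.JF (st0 C.p.toPar C.S (C.dt s) (C.o s)) v x =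
      G0 C.p.toPar C.S (C.dt s) (C.o s) v x
  /-- the estimate of the product of kind `2` is canonical -/
  h2 : ∀ s < C.p.S, ∀ v < C.p.n, ∀ x < C.p.n,
    estW C.p C.w (C.o s 4) C.p.n 4 C.p.JF (st2 C.p.toPar C.S (C.dt s) (C.o s)) v x =
      G2 C.p.toPar C.S (C.dt s) (C.o s) v x
  /-- the estimate of the Neumann series is canonical -/
  hX : ∀ s < C.p.S, ∀ σ < 2, ∀ v < C.p.n, ∀ x < C.p.n,
    estW C.p C.w (C.o s 5) (4 * C.p.n) C.p.RX C.p.JN
      (fun _ => Xst C.p.toPar C.S (C.dt s) (C.o s)) (4 * v) (4 * x + 2 + σ) =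
      Xp C.p.toPar C.S (C.dt s) (C.o s) σ v x

/-- THE GOAL FOR PHASE PROGRAMS: program `P` at level `l`. -/
def PGoal (E : Env) (P : CP) (l : ℕ) : Prop :=
  ∀ V : Orc, C.Right V l → ∀ q ≤ E.B, ∀ t, TpOk C.p t →
    (den E V P ⟨start l q, t⟩).tp = t ∧
      (C.vl l q → (den E V P ⟨start l q, t⟩).reg 2 = C.pv l q t)

/-- The kind of a phase: `0` data, `1` hop, `2` tour 0, `3` average 0, `4` majority 0,
`5` product 0, `6` `Z1`, `7` tour 1, `8` loss tour, `9` loss average, `10` `Zst`, `Zs`, `11` tour 2,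
`12` average 2, `13` majority 2, `14` product 2, `15` `H`, `16` `X`, `17` `Phi`. -/
theorem m_eq : C.p.m = 18 := rfl

end Ctx

/-- The kind as a function of the level. -/
def kdF : TS.Fn 1 := fun _ a => a 0 % 18

theorem lf_kdF : TS.LF kdF := by
  unfold kdF
  exact (TS.LF.proj 0).mod (TS.LF.const 18)

variable {C : Ctx} {E : Env}

theorem tok_iff (h : C.EnvOk E) (t : CT.Tape) : TOk E t ↔ TpOk C.p t := by
  unfold TOk TpOk
  rw [h.w, h.L]

/-- Static digits. -/
theorem Ctx.EnvOk.stat (h : C.EnvOk E) {V : Orc} {t : CT.Tape} {j : ℕ}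
    (hj : j < stW C.p.S + C.p.nw) : CT.stat (inp E V t) j = E.st j := by
  rw [stat_inp]
  exact min_eq_left (h.stB j hj)

/-- Static digits, parameters. -/
theorem Ctx.EnvOk.stat64 (h : C.EnvOk E) {V : Orc} {t : CT.Tape} {j : ℕ} (hj : j < 64) :
    CT.stat (inp E V t) j = E.st j :=
  h.stat (by unfold stW; omega)

/-- Answers of lower levels. -/
theorem Ctx.Right.ask (h : C.Hyp E) {V : Orc} {l : ℕ} (hl : l ≤ C.p.S * C.p.m)
    (hV : C.Right V l) {l' q : ℕ} (hl' : l' < l) (hq : C.vl l' q) {t : CT.Tape}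
    (ht : TpOk C.p t) : CT.ask (inp E V t) l' q = C.pv l' q t := by
  rw [ask_inp, hV l' hl' q hq t ht]
  exact min_eq_left (h.vB l' (by omega) q hq t ht)

/-- The stage and the phase of a level. -/
theorem level_div {m s ph : ℕ} (h : ph < m) : (s * m + ph) / m = s := by
  rw [mul_comm, Nat.mul_add_div (by omega), Nat.div_eq_of_lt h, Nat.add_zero]

theorem level_mod {m s ph : ℕ} (h : ph < m) : (s * m + ph) % m = ph := by
  rw [Nat.mul_add_mod_self_right, Nat.mod_eq_of_lt h]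

theorem Ctx.pv_eq {s ph q : ℕ} {t : Tp} (h : ph < C.p.m) :
    C.pv (s * C.p.m + ph) q t =
      phVal C.p C.S C.T C.w (C.dt s) (C.o s) ph q t := by
  unfold Ctx.pv
  rw [level_div h, level_mod h]

theorem Ctx.vl_eq {s ph q : ℕ} (h : ph < C.p.m) :
    C.vl (s * C.p.m + ph) q ↔ vq C.p (C.dt s) ph q := by
  unfold Ctx.vl
  rw [level_div h, level_mod h]

/-- Answers of lower phases of the same stage. -/
theorem Ctx.Right.ask_stage (h : C.Hyp E) {V : Orc} {s ph : ℕ} (hs : s < C.p.S)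
    (hph : ph < C.p.m) (hV : C.Right V (s * C.p.m + ph)) {ph' q : ℕ} (hph' : ph' < ph)
    (hq : vq C.p (C.dt s) ph' q) {t : CT.Tape} (ht : TpOk C.p t) :
    CT.ask (inp E V t) (s * C.p.m + ph') q =
      phVal C.p C.S C.T C.w (C.dt s) (C.o s) ph' q t := by
  have h1 : s * C.p.m + ph ≤ C.p.S * C.p.m := by
    calc s * C.p.m + ph ≤ s * C.p.m + C.p.m := by omega
      _ = (s + 1) * C.p.m := by ring
      _ ≤ C.p.S * C.p.m := Nat.mul_le_mul_right _ hs
  rw [Ctx.Right.ask h h1 hV (by omega) ((C.vl_eq (by omega)).2 hq) ht, C.pv_eq (by omega)]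

/-- Answers of the stage before. -/
theorem Ctx.Right.ask_prev (h : C.Hyp E) {V : Orc} {s ph : ℕ}
    (hl : (s + 1) * C.p.m + ph ≤ C.p.S * C.p.m)
    (hV : C.Right V ((s + 1) * C.p.m + ph)) {ph' q : ℕ} (hph' : ph' < C.p.m)
    (hq : vq C.p (C.dt s) ph' q) {t : CT.Tape} (ht : TpOk C.p t) :
    CT.ask (inp E V t) (s * C.p.m + ph') q =
      phVal C.p C.S C.T C.w (C.dt s) (C.o s) ph' q t := by
  have h1 : s * C.p.m + ph' < (s + 1) * C.p.m + ph := by
    have : (s + 1) * C.p.m = s * C.p.m + C.p.m := by ring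
    omega
  rw [Ctx.Right.ask h hl hV h1 ((C.vl_eq hph').2 hq) ht, C.pv_eq hph']

/-- THE MASTER THEOREM. -/
theorem master (h : C.Hyp E) {ps : List CP} (hlen : ps.length = 18)
    (hps : ∀ l ≤ C.p.S * C.p.m, ∀ (k : ℕ) (hk : k < ps.length),
      k = l % C.p.m → C.PGoal E ps[k] l) :
    Restores E (sel kdF ps) (C.p.S * C.p.m) ∧
      ∀ l ≤ C.p.S * C.p.m, ∀ q ≤ E.B, ∀ t, TpOk C.p t → C.vl l q →
        val E (sel kdF ps) l q t = C.pv l q t := by
  have key := phases_ind (E := E) (ph := kdF) (ps := ps) (top := C.p.S * C.p.m)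
    (Sp := fun l q t v => C.vl l q → v = C.pv l q t)
    (by rw [hlen]; have := h.B18; omega)
    (fun l => l % C.p.m)
    (fun V t l _ => rfl)
    (fun l _ => by rw [hlen]; exact Nat.mod_lt l (show 0 < 18 by norm_num))
    (fun l hl ih q hq t ht => by
      have hR : C.Right (orc E (sel kdF ps) l) l := by
        intro l' hl' q' hq' t' ht'
        unfold orc
        rw [Nat.unpair_pair]
        simp only [hl', if_true]
        have h1 : q' ≤ E.B := h.qB l' (by omega) q' hq'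
        rw [min_eq_left h1]
        exact ih l' hl' q' h1 t' ((tok_iff h.toEnvOk t').2 ht') hq'
      have h2 := hps l hl (l % C.p.m) (by rw [hlen]; exact Nat.mod_lt l (show 0 < 18 by norm_num)) rfl
        (orc E (sel kdF ps) l) hR q hq t ((tok_iff h.toEnvOk t).1 ht)
      refine ⟨h2.1, fun hv => ?_⟩
      rw [h2.2 hv]
      exact min_eq_left (h.vB l hl q hv t ((tok_iff h.toEnvOk t).1 ht)))
  exact ⟨key.1, fun l hl q hq t ht hv => key.2 l hl q hq t ((tok_iff h.toEnvOk t).2 ht) hv⟩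

end Vale.Agent.P313.NW.H899
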