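import Vale.Agent.P313.NW.H899.T0LF
import Vale.Agent.P313.NW.BP.PhVal

/-!
The phase HOP returns the canonical value.
-/

namespace Vale.Agent.P313.NW.H899

open Vale.Agent.P313.H899

open Finset Vale.Agent.P313.NW.CT Vale.Agent.P313.CT

theorem pre_FD (p : BP.Par) (d : BP.SD) (v x : ℕ) :
    pre (FD p d v) x = p.q ^ (d.c v - p.b) * BP.cumR d v x := by
  unfold pre FD BP.cumR
  rw [mul_sum]

theorem preC_FD (p : BP.Par) (d : BP.SD) (x v : ℕ) :
    pre (fun v' => FD p d v' x) v = BP.cumC p d x v := rfl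

theorem hopF_fst (p : BP.Par) (d : BP.SD) (v z : ℕ) :
    (BP.hopF p d v z).1 = fx p.n (FD p d) v z := by
  simp only [BP.hopF, fx, loc, card_filter, pre_FD]

theorem hopF_snd (p : BP.Par) (d : BP.SD) (v z : ℕ) :
    (BP.hopF p d v z).2 = fr p.n (FD p d) v z := by
  have h := hopF_fst p d v z
  unfold fr
  rw [← h, pre_FD, preC_FD]
  rfl

theorem hopB_fst (p : BP.Par) (d : BP.SD) (x ρ : ℕ) :
    (BP.hopB p d x ρ).1 = bv p.n (FD p d) x ρ := by
  simp only [BP.hopB, bv, loc, card_filter, preC_FD]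
  exact sum_congr rfl fun i _ => if_congr Iff.rfl rfl rfl

theorem hopB_snd (p : BP.Par) (d : BP.SD) (x ρ : ℕ) :
    (BP.hopB p d x ρ).2 = bz p.n (FD p d) x ρ := by
  have h := hopB_fst p d x ρ
  unfold bz
  rw [← h, pre_FD, preC_FD]
  simp only [BP.hopB]
  omega

/-- The function `hopF` computes the canonical value of HOP. -/
theorem hop_phVal {p : BP.Par2} {S : BP.Sem} {T : BP.TSem} {w : ℕ → ℕ} {d : BP.SD}
    {o : ℕ → ℕ} {t t' : BP.Tp} {I : TS.Inp} {l : ℕ} (hn : stat I 0 = p.n)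
    (hq : stat I 1 = p.q) (hb : stat I 2 = p.b)
    (hA : ∀ q, BP.vq p d BP.phData q →
      ask I (l - 1) q = BP.phVal p S T w d o BP.phData q t)
    (hB : ∀ v < p.n, p.q ^ (d.c v - p.b) ≤ bnd I)
    (hd : ∀ v < p.n, ∑ x ∈ range p.n, d.A v x = p.q ^ p.b) (hc : ∀ v < p.n, p.b ≤ d.c v)
    {q : ℕ} (hv : BP.vq p d BP.phHop q) :
    hopF I ![l, q] = BP.phVal p S T w d o BP.phHop q t' := by
  have hD : DataOk p.toPar d I l := by
    refine ⟨hn, hq, hb, fun v hv x hx => ?_, fun v hv => ?_, hB⟩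
    · rw [hA]
      · simp [BP.phVal]
      · simp only [BP.vq, if_true, BP.q1_pair, BP.q2_pair, BP.e3_pair]
        exact ⟨by omega, hv, hx⟩
    · rw [hA]
      · simp [BP.phVal]
      · simp only [BP.vq, if_true, BP.q1_pair, BP.q2_pair, BP.e3_pair]
        exact ⟨by omega, hv, by omega⟩
  have e : BP.phHop ≠ BP.phData := by decide
  simp only [BP.vq, if_neg e, if_true] at hv
  simp only [BP.phVal, if_neg e, if_true]
  have hq' : q = Nat.pair (BP.q1 q) (Nat.pair (BP.q2 q) (BP.e3 q)) := by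
    simp [BP.q1, BP.q2, BP.e3]
  rcases hv with ⟨h1, h2, h3⟩ | ⟨h1, h2, h3⟩
  · rw [if_pos h1, hopF_fst, hopF_snd]
    conv_lhs => rw [hq', h1]
    refine hopF_fwd hD h2 ?_
    rw [rowS_FD (hd _ h2) (hc _ h2)]
    exact h3
  · rw [if_neg (by omega), hopB_fst, hopB_snd]
    conv_lhs => rw [hq', h1]
    rw [hopF_bwd hD _ h2]
    have h4 : colS p.n (FD p.toPar d) (BP.q2 q) = BP.cumC p.toPar d (BP.q2 q) p.n := rfl
    rw [h4]
    split_ifs with h5 h6 h6
    · omega
    · rfl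
    · rfl
    · omega

end Vale.Agent.P313.NW.H899
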