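import Vale.Agent.P313.NW.H899.Vals
import Vale.Agent.P313.NW.H974.All
import Vale.Agent.P313.NW.H126.Good

/-!
All hypotheses of the induction over the levels, from the hypotheses on the parameters.
-/

namespace Vale.Agent.P313.NW.H899

open Vale.Agent.P313.H899

open Finset Vale.Agent.P313.NW.CT Vale.Agent.P313.CT Vale.Agent.P313.NW.BP

variable {C : Ctx} {E : Env} {M : ℕ}

/-- The data of all stages are valid. -/
theorem dtOk_of (hp : H974.NumOK C.p.toPar) (hS : H974.SemOK C.p.toPar C.S)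
    (ho : H974.Offs C.p.toPar C.o) (hcs : ∀ v, v + 1 < C.p.n → ∀ b, C.cs v b + 1 < C.p.n)
    (hSq : 2 * C.p.S ≤ C.p.q ^ 2) (hcm : C.p.b + C.p.S ≤ C.p.cmax) :
    ∀ s ≤ C.p.S, C.DtOk (C.dt s) := by
  intro s hs
  have hv := H974.data_val hp hS ho hcs hSq s hs
  refine ⟨hv.row, hv.cb, fun v _ => ?_, hv.mass, fun v _ => ?_⟩
  · exact (H974.c_le v s).trans (by omega)
  · exact H974.k_le v s

/-- The environment, the bounds and a good seed give all hypotheses. -/
theorem hyp_of (he : C.EnvOk E) (hB : C.Base M) (hM : M ^ 12 ≤ E.B) (htop : C.p.S * C.p.m ≤ E.B)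
    (hd : ∀ s ≤ C.p.S, C.DtOk (C.dt s))
    (hg : H126.GoodW C.p C.S C.T C.cs C.o C.w) : C.Hyp E where
  toEnvOk := he
  topB := htop
  B18 := by
    refine le_trans ?_ hM
    calc 18 ≤ 4 ^ 12 := by norm_num
      _ ≤ M ^ 12 := Nat.pow_le_pow_left hB.M4 12
  qB := fun l hl q hq => (hB.qB hd hl hq).le.trans hM
  vB := fun l hl q hq t ht => (hB.vB hd hl hq ht).trans
    ((Nat.pow_le_pow_right (by have := hB.M4; omega) (by norm_num)).trans hM)
  dtOk := hd
  wB := by
    refine hB.w0.trans (le_trans ?_ hM)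
    exact Nat.le_self_pow (by norm_num) M
  wXB := by
    refine hB.wX.trans (le_trans ?_ hM)
    exact Nat.le_self_pow (by norm_num) M
  mj0 := fun s hs => (hg s hs).g0
  mjL := fun s hs => (hg s hs).g1
  mj2 := fun s hs => (hg s hs).g2
  h0 := fun s hs => (hg s hs).h0
  h2 := fun s hs => (hg s hs).h2
  hX := fun s hs => (hg s hs).hX

end Vale.Agent.P313.NW.H899
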